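import Claimed.Agent.R282.Rep.C.W4.Defs

/-!
# Row 282, Rep, LEAF L-C-W4-A : both sides are alternating (architect helper78), ~80 lines

PLAN.  Let `(τ', t')` be the inverse of `(τ, t)` (`spa_inv`: `evenS t'`, `sign τ' = sign τ`, both compositions are the identity).
`m (wν - y) = m (w (ν - w⁻¹ y)) = m (ν - w⁻¹ y)`  (`spa_add`, `spa_smul` with `c = -1` or a direct `funext` for `signedPermAct` of a difference; `hW`).
So the left side is `altWD (fun y => F (signedPermAct τ' t' y)) ρ` with `F z = m (ν - z)`: `altWD_comp`.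
For `J`: `wν = y ↔ ν = w⁻¹ y` (apply `w⁻¹` / `w`), same lemma.
RULES: edit in place, keep names and statements, helper lemmas with prefix `cw4a_`.
-/

set_option autoImplicit false

namespace Claimed.Agent.R282

open Claims.C0456

variable {n : ℕ}

theorem cw4a_sub (τ : Equiv.Perm (Fin n)) (t : Fin n → Bool) (a b : Fin n → ℤ) :
    signedPermAct τ t (a - b) = signedPermAct τ t a - signedPermAct τ t b := by
  ext i
  simp [signedPermAct, mul_sub]

/-- [A] -/
theorem cw4_E_act (m : (Fin n → ℤ) → ℤ) (hW : Cw4Inv m) (τ : Equiv.Perm (Fin n)) (t : Fin n → Bool)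
    (ht : evenS t) (δ ν : Fin n → ℤ) :
    altWD (fun y => m (signedPermAct τ t ν - y)) δ =
      ((Equiv.Perm.sign τ : ℤˣ) : ℤ) * altWD (fun y => m (ν - y)) δ := by
  obtain ⟨τ', t', ht', hsg, -, h2⟩ := spa_inv τ t ht
  rw [← hsg, ← altWD_comp τ' t' ht' (fun z => m (ν - z)) δ]
  congr 1
  ext y
  rw [← hW τ t ht (ν - signedPermAct τ' t' y), cw4a_sub, h2]

theorem cw4_J_act (τ : Equiv.Perm (Fin n)) (t : Fin n → Bool) (ht : evenS t) (δ ν : Fin n → ℤ) :
    altWD (fun y => if signedPermAct τ t ν = y then 1 else 0) δ =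
      ((Equiv.Perm.sign τ : ℤˣ) : ℤ) * altWD (fun y => if ν = y then 1 else 0) δ := by
  obtain ⟨τ', t', ht', hsg, h1, h2⟩ := spa_inv τ t ht
  rw [← hsg, ← altWD_comp τ' t' ht' (fun z => if ν = z then 1 else 0) δ]
  congr 1
  ext y
  by_cases h : signedPermAct τ t ν = y
  · rw [if_pos h, if_pos (by rw [← h, h1])]
  · rw [if_neg h, if_neg (fun h' => h (by rw [h', h2]))]

end Claimed.Agent.R282
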