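import Claimed.Agent.R282.Rep.C.W4.Defs

/-!
# Row 282, Rep, LEAF L-C-W4-D : the two sides on the dominant chamber (architect helper78), ~250 lines

Black boxes: `WDkit/Cham.lean` (K6)-(K11), `WDkit/Grp.lean`.
PLAN.
* `cw4_J_dom`: unfold `altWD`.  A term with `evenS s` and `ν = w δ` : `w δ` is dominant, `δ` is dominant (`RegZ2 → DomZ2`), so `w δ = δ` (`spa_dom_unique`) and `(σ, s) = (1, false)`
  (`spa_stab`).  So if `ν ≠ δ` all terms vanish; if `ν = δ` only the term `(1, fun _ => false)` survives (`Finset.sum_eq_single` twice; `evenS_false`;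
  `signedPermAct 1 (fun _ => false) x = x` by `funext; simp [signedPermAct]`; `Equiv.Perm.sign_one`).
* `cw4_E_dom`, case `ν = L + ρ`: the term `(σ, s)` is `sign σ * m (L + ρ - wρ)`.  If it is `≠ 0` then `InQplus (L - (L + ρ - wρ)) = InQplus (-(ρ - wρ))` (`hle`) and
  `InQplus (ρ - wρ)` (`dom_sub_mem`, `rho2_dominant`), so `wρ = ρ` (`qplus_antisymm`), `(σ, s) = (1, false)` (`spa_stab`, `rho2_reg`).  The term `(1, false)` is `m L = 1`.
* `cw4_E_dom`, case `ν ≠ L + ρ`: suppose `E ν ≠ 0`.  By `hlap`, `∑ (L+ρ)² = ∑ ν²`.  Some term is `≠ 0` (`Finset.sum_eq_zero` contrapositive): `m (ν - wρ) ≠ 0`, so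
  `InQplus (L - (ν - wρ))`; add `InQplus (ρ - wρ)` (`qplus_add`): `q = L + ρ - ν ∈ Q₊`, `q ≠ 0`.  `L + ρ + ν` is `RegZ2` (`add_rho2_reg` + `DomZ2 ν`: `abs_add_le`).
  `qplus_pair_pos`: `0 < ∑ q_i (L+ρ+ν)_i = ∑ (L+ρ)² - ∑ ν² = 0`.  Contradiction.
RULES: edit in place, keep names and statements, helper lemmas with prefix `cw4d_`.
-/

set_option autoImplicit false

namespace Claimed.Agent.R282

open Claims.C0456

variable {n : ℕ}

/-- [D] -/
theorem cw4_J_dom (δ : Fin n → ℤ) (hδ : RegZ2 δ) (ν : Fin n → ℤ) (hν : DomZ2 ν) :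
    altWD (fun y => if ν = y then 1 else 0) δ = if ν = δ then 1 else 0 := by
  rw [altWD_eq_single]
  intro σ s hs hne
  refine if_neg fun h => hne ?_
  have h1 := spa_dom_unique δ (fun i j hij => (hδ i j hij).le) σ s hs (h ▸ hν)
  exact spa_stab δ hδ σ s hs h1

theorem cw4_E_dom (L : Fin n → ℤ) (hL : IsDominantWeight2 L) (m : (Fin n → ℤ) → ℤ) (htop : m L = 1)
    (hle : ∀ γ, m γ ≠ 0 → InQplus (L - γ))
    (hlap : ∀ ν : Fin n → ℤ,
      ((∑ i, (L i + rho2 n i) ^ 2) - ∑ i, ν i ^ 2) * altWD (fun y => m (ν - y)) (rho2 n) = 0)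
    (ν : Fin n → ℤ) (hν : DomZ2 ν) :
    altWD (fun y => m (ν - y)) (rho2 n) = if ν = L + rho2 n then 1 else 0 := by
  by_cases hνL : ν = L + rho2 n
  · rw [if_pos hνL, altWD_eq_single]
    · rw [hνL, add_sub_cancel_right, htop]
    · intro σ s hs hne
      by_contra hm
      have h1 := hle _ hm
      have h2 := dom_sub_mem _ rho2_dominant σ s hs
      have e : L - (ν - signedPermAct σ s (rho2 n)) = -(rho2 n - signedPermAct σ s (rho2 n)) := by
        rw [hνL]
        abel
      rw [e] at h1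
      have h3 := qplus_antisymm _ h2 h1
      exact hne (spa_stab _ rho2_reg σ s hs (sub_eq_zero.1 h3).symm)
  · rw [if_neg hνL]
    by_contra hE
    have hN : (∑ i, (L i + rho2 n i) ^ 2) - ∑ i, ν i ^ 2 = 0 :=
      (mul_eq_zero.1 (hlap ν)).resolve_right hE
    rw [altWD_def'] at hE
    obtain ⟨σ, -, hσ⟩ := Finset.exists_ne_zero_of_sum_ne_zero hE
    obtain ⟨s, -, hs⟩ := Finset.exists_ne_zero_of_sum_ne_zero hσ
    have hse : evenS s := by
      by_contra h
      exact hs (if_neg h)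
    rw [if_pos hse] at hs
    have hm : m (ν - signedPermAct σ s (rho2 n)) ≠ 0 := right_ne_zero_of_mul hs
    have h1 := qplus_add _ _ (hle _ hm) (dom_sub_mem _ rho2_dominant σ s hse)
    have e : L - (ν - signedPermAct σ s (rho2 n)) + (rho2 n - signedPermAct σ s (rho2 n)) =
        L + rho2 n - ν := by abel
    rw [e] at h1
    have hq0 : L + rho2 n - ν ≠ 0 := fun h => hνL (sub_eq_zero.1 h).symm
    have hreg : RegZ2 (L + rho2 n + ν) := by
      intro i j hij
      have h2 := add_rho2_reg L hL i j hij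
      have h3 := hν i j hij
      have h4 := abs_add_le ((L + rho2 n) j) (ν j)
      simp only [Pi.add_apply] at h2 h4 ⊢
      omega
    have h5 := qplus_pair_pos _ h1 hq0 _ hreg
    have e2 : ∑ i, (L + rho2 n - ν) i * (L + rho2 n + ν) i =
        (∑ i, (L i + rho2 n i) ^ 2) - ∑ i, ν i ^ 2 := by
      rw [← Finset.sum_sub_distrib]
      refine Finset.sum_congr rfl fun i _ => ?_
      simp only [Pi.add_apply, Pi.sub_apply]
      ring
    rw [e2, hN] at h5
    exact lt_irrefl _ h5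

end Claimed.Agent.R282
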