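import Claimed.Agent.R282.Rep.C.W4.Defs

/-!
# Row 282, Rep, LEAF L-C-W4-K : a uniform truncation (architect helper78), ~80 lines

PLAN.  `cw4B r ≠ 0` (its value at `r.1.1` is `2`, because `r.1.1 ≠ r.1.2.1`), so `k ↦ γ + k • cw4B r` is injective on `ℕ`; the preimage of the finite
set `support m` is finite (`Set.Finite.preimage`, `Set.injOn_of_injective`), hence bounded above (`Set.Finite.bddAbove`): `∃ K, ∀ k ≥ K, m (γ + k • β_r) = 0`.
Choose such a `K (T, r)` for every pair (`choose`), take `1 + ∑_(T,r) K (T, r)` or `Finset.univ.sup` (`Finset.le_sup`, `Finset.single_le_sum`).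
RULES: edit in place, keep names and statements, helper lemmas with prefix `cw4k_`.
-/

set_option autoImplicit false

namespace Claimed.Agent.R282

open Claims.C0456

variable {n : ℕ}

/-- the height `y ↦ ⟨y, ρ⟩` -/
def cw4kH (n : ℕ) : (Fin n → ℤ) →+ ℤ where
  toFun y := ∑ i, y i * rho2 n i
  map_zero' := by simp
  map_add' a b := by simp [add_mul, Finset.sum_add_distrib]

theorem cw4kH_pos (r : Cw4R n) : 0 < cw4kH n (cw4B r) :=
  wdc_root_pair_pos _ _ r.2 _ _ rho2_reg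

/-- [K] -/
theorem cw4_exists_K (m : (Fin n → ℤ) → ℤ) (hfin : (Function.support m).Finite) (x : Fin n → ℤ) :
    ∃ K : ℕ, 1 ≤ K ∧ ∀ T : Finset (Cw4R n), ∀ k, K ≤ k → ∀ r : Cw4R n,
      m (x + ∑ r' ∈ T, cw4B r' + k • cw4B r) = 0 := by
  obtain ⟨B, hB⟩ := (hfin.image (cw4kH n)).bddAbove
  refine ⟨(B - cw4kH n x).toNat + 1, by omega, fun T k hk r => ?_⟩
  by_contra hne
  have h1 : cw4kH n (x + ∑ r' ∈ T, cw4B r' + k • cw4B r) ≤ B := hB ⟨_, hne, rfl⟩
  rw [map_add, map_add, map_sum, map_nsmul, nsmul_eq_mul] at h1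
  have h2 : 0 ≤ ∑ r' ∈ T, cw4kH n (cw4B r') := Finset.sum_nonneg fun r' _ => (cw4kH_pos r').le
  have h3 : (k : ℤ) ≤ (k : ℤ) * cw4kH n (cw4B r) :=
    le_mul_of_one_le_right (Int.natCast_nonneg _) (cw4kH_pos r)
  omega

end Claimed.Agent.R282
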