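import Claimed.Agent.R282.Rep.C.WDkit
import Claimed.Agent.R282.Rep.C.Denom

/-!
# Row 282, Rep, BP-C-W4 : definitions and ROUTE (architect helper78)

ROUTE (simpler than the header of `C/W4.lean`: NO group algebra, NO derivations, NO string symmetry, NO finiteness of `S_β`;
only finite sums over subsets `T` of the set `R = Cw4R n` of positive roots).
Notation: `β_r = cw4B r`, `β_T = ∑_(r∈T) β_r`, `ε_T = (-1)^|T|`, `ρ = rho2 n`, `⟨x,y⟩ = ∑ x_i y_i`, `N = |L+ρ|²`,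
`E ν = altWD (fun y => m (ν - y)) ρ = ∑_w det w · m (ν - wρ)`,  `J ν = altWD (fun y => [ν = y]) (L+ρ)`.   GOAL: `E = J`.
* [T] `cw4_transfer` (from `denomD`): `altWD G ρ = ∑_T ε_T G (ρ - β_T)` for EVERY `G`.
* [K] `cw4_exists_K`: a uniform truncation `K` for the finitely many points `x + β_T`.
* [S] `cw4_split`: for one root `r`, `g` arbitrary, `s γ = ∑_(1≤k<K) g (γ + k β_r)`:
      `∑_T ε_T s (x+β_T) + ∑_(T∋r) ε_T g (x+β_T) = 0`   (pair `T ∌ r` with `T ∪ {r}`; `s γ - s (γ+β_r) = g (γ+β_r) - g (γ+Kβ_r)`).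
* [L] `cw4_lap`: `(N - |ν|²) E ν = 0`.   With `x = ν - ρ`, `γ_T = x + β_T`, `y_T = ρ - β_T`:
      `N - |ν|² = (N - |γ_T+ρ|²) + 2 ⟨γ_T, β_T⟩ + (|ρ|² - |y_T|²)`; Freudenthal at `γ_T`; [S] for every `r`; [T] for `G y = (|ρ|²-|y|²) m (ν-y)` (`spa_dot`).
* [A] `cw4_E_act`, `cw4_J_act`: `E (wν) = det w E ν`, `J (wν) = det w J ν`.
* [D] `cw4_E_dom`, `cw4_J_dom`: for dominant `ν`: `E ν = [ν = L+ρ] = J ν`.
* glue (`C/W4.lean`, proved): move `ν` to the dominant chamber (`exists_domZ2`).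
-/

set_option autoImplicit false

namespace Claimed.Agent.R282

open Claims.C0456

variable {n : ℕ}

/-- index set of the positive roots -/
abbrev Cw4R (n : ℕ) : Type := {r : Fin n × Fin n × Bool // r.1 < r.2.1}

/-- the (doubled) positive root -/
abbrev cw4B (r : Cw4R n) : Fin n → ℤ := posRoot2 r.1.1 r.1.2.1 r.1.2.2

/-- Freudenthal's recursion (multiplied by `4`), truncated sums -/
def Cw4Freud (L : Fin n → ℤ) (m : (Fin n → ℤ) → ℤ) : Prop :=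
  ∀ (γ : Fin n → ℤ) (K : ℕ), (∀ k, K ≤ k → ∀ r : Cw4R n, m (γ + k • cw4B r) = 0) →
    ((∑ i, (L i + rho2 n i) ^ 2) - ∑ i, (γ i + rho2 n i) ^ 2) * m γ =
      2 * ∑ r : Cw4R n, ∑ k ∈ Finset.Ico 1 K,
        (∑ i, (γ + k • cw4B r) i * cw4B r i) * m (γ + k • cw4B r)

/-- invariance under `W(D_n)` -/
def Cw4Inv (m : (Fin n → ℤ) → ℤ) : Prop :=
  ∀ (σ : Equiv.Perm (Fin n)) (s : Fin n → Bool), evenS s → ∀ γ, m (signedPermAct σ s γ) = m γ

end Claimed.Agent.R282
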