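import Mathlib

/-!
# Row 282, Rep, LEAF L-C-W4-S : pairing `T ∌ r` with `T ∪ {r}` (architect helper78), MATHLIB ONLY, ~120 lines

PLAN.  (1) For every `H : Finset R → ℤ`: `∑_T H T = ∑_T (if r ∈ T then 0 else H T + H (insert r T))`
  (split `univ` into `filter (r ∈ ·)` and `filter (r ∉ ·)`; `T ↦ insert r T` is a bijection from the second onto the first with inverse `erase`:
  `Finset.sum_bij'`/`Finset.sum_nbij'`; or `Finset.sum_powerset_insert` after writing `univ = (insert r (univ.erase r)).powerset`).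
(2) For `r ∉ T`: `(insert r T).card = T.card + 1`, `∑_(r'∈insert r T) β r' = β r + ∑_(r'∈T) β r'`.
(3) telescoping: with `γ = x + β_T`: `∑_(k∈Ico 1 K) g (γ + k•β) - ∑_(k∈Ico 1 K) g (γ + β + k•β) = g (γ + β) - g (γ + K•β)`
  (`Finset.sum_Ico_consecutive`/induction on `K` from `1` with `Nat.le_induction`; `γ + β + k•β = γ + (k+1)•β`), and `g (γ + K•β) = 0` by `h0`.
(4) apply (1) to both sums of the statement and add.
RULES: edit in place, keep names and statements, helper lemmas with prefix `cw4s_`.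
-/

set_option autoImplicit false

namespace Claimed.Agent.R282

variable {n : ℕ}

theorem cw4s_tel (f : ℕ → ℤ) (K : ℕ) (hK : 1 ≤ K) :
    ∑ k ∈ Finset.Ico 1 K, f k - ∑ k ∈ Finset.Ico 1 K, f (k + 1) = f 1 - f K := by
  induction K, hK using Nat.le_induction with
  | base => simp
  | succ K hK ih =>
    rw [Finset.sum_Ico_succ_top hK, Finset.sum_Ico_succ_top hK]
    linarith

theorem cw4s_pair {R : Type} [Fintype R] [DecidableEq R] (r : R) (H : Finset R → ℤ) :
    ∑ T : Finset R, H T = ∑ T ∈ (Finset.univ.erase r).powerset, (H T + H (insert r T)) := by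
  rw [Finset.sum_add_distrib, ← Finset.sum_powerset_insert (Finset.notMem_erase r _),
    Finset.insert_erase (Finset.mem_univ r), Finset.powerset_univ]

/-- [S] -/
theorem cw4_split {R : Type} [Fintype R] [DecidableEq R] (β : R → Fin n → ℤ) (r : R)
    (g : (Fin n → ℤ) → ℤ) (x : Fin n → ℤ) (K : ℕ) (hK : 1 ≤ K)
    (h0 : ∀ T : Finset R, g (x + ∑ r' ∈ T, β r' + K • β r) = 0) :
    ∑ T : Finset R, (-1 : ℤ) ^ T.card * ∑ k ∈ Finset.Ico 1 K, g (x + ∑ r' ∈ T, β r' + k • β r)
      + ∑ T : Finset R, (if r ∈ T then (-1 : ℤ) ^ T.card * g (x + ∑ r' ∈ T, β r') else 0) = 0 := by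
  rw [cw4s_pair r, cw4s_pair r (fun T => if r ∈ T then (-1 : ℤ) ^ T.card * g (x + ∑ r' ∈ T, β r') else 0),
    ← Finset.sum_add_distrib]
  refine Finset.sum_eq_zero fun T hT => ?_
  have hrT : r ∉ T := fun h => Finset.notMem_erase r _ (Finset.mem_powerset.1 hT h)
  rw [if_neg hrT, if_pos (Finset.mem_insert_self r T), Finset.card_insert_of_notMem hrT,
    Finset.sum_insert hrT]
  have e1 : ∀ k : ℕ, x + (β r + ∑ r' ∈ T, β r') + k • β r = x + ∑ r' ∈ T, β r' + (k + 1) • β r := by
    intro k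
    rw [add_smul, one_smul]
    abel
  have e2 : x + (β r + ∑ r' ∈ T, β r') = x + ∑ r' ∈ T, β r' + 1 • β r := by
    rw [one_smul]
    abel
  have h1 := cw4s_tel (fun k => g (x + ∑ r' ∈ T, β r' + k • β r)) K hK
  simp only [e1]
  rw [e2]
  rw [h0 T] at h1
  rw [pow_succ]
  linear_combination (-1 : ℤ) ^ T.card * h1

end Claimed.Agent.R282
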