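import Claimed.Agent.R282.Rep.C.W4.Transfer
import Claimed.Agent.R282.Rep.C.W4.Bound
import Claimed.Agent.R282.Rep.C.W4.Split

/-!
# Row 282, Rep, LEAF L-C-W4-L : the Laplacian identity `(|L+ρ|² - |ν|²) E ν = 0` (architect helper78), ~200 lines

Black boxes: `cw4_transfer` [T], `cw4_exists_K` [K], `cw4_split` [S], `spa_dot`.
PLAN.  Fix `ν`; `x = ν - ρ`, `γ_T = x + β_T`, `y_T = ρ - β_T`, so `ν - y_T = γ_T` and `ν = γ_T + y_T`.  `N = ∑ (L_i+ρ_i)²`.  Take `K` from [K] for `x`.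
(1) [T] with `G y = m (ν - y)`:  `E ν = ∑_T ε_T m γ_T`.
(2) pointwise algebra (expand squares; `Finset.sum_add_distrib`, `Finset.mul_sum`, or prove `∑ (a_i+b_i)² = ∑ a_i² + 2 ∑ a_i b_i + ∑ b_i²` once):
    `N - ∑ ν_i² = (N - ∑ (γ_T i + ρ_i)²) + 2 ∑_i γ_T i * β_T i + (∑ ρ_i² - ∑ (y_T i)²)`.
(3) `hF γ_T K` (hypothesis from [K]): `(N - ∑ (γ_T+ρ)²) m γ_T = 2 ∑_r s_r γ_T`, `s_r γ = ∑_(k∈Ico 1 K) g_r (γ + k•β_r)`, `g_r γ = (∑_i γ_i (β_r)_i) m γ`.
(4) `∑_i γ_T i * β_T i * m γ_T = ∑_r [r ∈ T] g_r γ_T`  (`Finset.sum_apply`, `Finset.sum_comm`, `Finset.sum_ite_mem`/`Finset.sum_filter`).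
(5) sum over `T` with `ε_T`, exchange `∑_T ∑_r`; for every `r` use [S] with `g = g_r` (`h0` from [K] with `k = K`: `m = 0` there).
(6) `∑_T ε_T (∑ρ² - ∑ y_T²) m γ_T = altWD (fun y => (∑ρ² - ∑ y²) m (ν - y)) ρ` by [T] backwards, and every term of this `altWD` vanishes by `spa_dot σ s ρ ρ`
    (unfold `altWD`; `Finset.sum_eq_zero`).
RULES: edit in place, keep names and statements, helper lemmas with prefix `cw4l_`.
-/

set_option autoImplicit false

namespace Claimed.Agent.R282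

open Claims.C0456

variable {n : ℕ}

theorem cw4l_sq (γ ρ β : Fin n → ℤ) :
    ∑ i, (γ i + ρ i - β i) ^ 2 =
      ∑ i, (γ i + ρ i) ^ 2 - 2 * ∑ i, γ i * β i - ∑ i, ρ i ^ 2 + ∑ i, (ρ i - β i) ^ 2 := by
  rw [Finset.mul_sum, ← Finset.sum_sub_distrib, ← Finset.sum_sub_distrib, ← Finset.sum_add_distrib]
  refine Finset.sum_congr rfl fun i _ => ?_
  ring

theorem cw4l_comm {A B : Type} [Fintype A] [Fintype B] (ε : A → ℤ) (a : A → B → ℤ) :
    ∑ T, ε T * (2 * ∑ r, a T r) = 2 * ∑ r, ∑ T, ε T * a T r := by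
  simp only [Finset.mul_sum]
  rw [Finset.sum_comm]
  refine Finset.sum_congr rfl fun r _ => Finset.sum_congr rfl fun T _ => ?_
  ring

/-- [L] -/
theorem cw4_lap (L : Fin n → ℤ) (m : (Fin n → ℤ) → ℤ) (hfin : (Function.support m).Finite)
    (hF : Cw4Freud L m) (ν : Fin n → ℤ) :
    ((∑ i, (L i + rho2 n i) ^ 2) - ∑ i, ν i ^ 2) * altWD (fun y => m (ν - y)) (rho2 n) = 0 := by
  classical
  obtain ⟨K, hK1, hK⟩ := cw4_exists_K m hfin (ν - rho2 n)
  set x := ν - rho2 n with hx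
  set N := ∑ i, (L i + rho2 n i) ^ 2 with hN
  set bT : Finset (Cw4R n) → (Fin n → ℤ) := fun T => ∑ r ∈ T, cw4B r with hbT
  set g : Cw4R n → (Fin n → ℤ) → ℤ := fun r γ => (∑ i, γ i * cw4B r i) * m γ with hg
  have hνT : ∀ T, ν - (rho2 n - bT T) = x + bT T := by
    intro T
    rw [hx]
    abel
  -- (1)
  have h1 : altWD (fun y => m (ν - y)) (rho2 n) =
      ∑ T : Finset (Cw4R n), (-1 : ℤ) ^ T.card * m (x + bT T) := by
    rw [cw4_transfer]
    refine Finset.sum_congr rfl fun T _ => ?_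
    rw [← hνT T]
  -- (6)
  have h6 : ∑ T : Finset (Cw4R n), (-1 : ℤ) ^ T.card *
      ((∑ i, rho2 n i ^ 2 - ∑ i, (rho2 n i - bT T i) ^ 2) * m (x + bT T)) = 0 := by
    have h := cw4_transfer (fun y => (∑ i, rho2 n i ^ 2 - ∑ i, y i ^ 2) * m (ν - y))
    have h0 : altWD (fun y => (∑ i, rho2 n i ^ 2 - ∑ i, y i ^ 2) * m (ν - y)) (rho2 n) = 0 := by
      rw [altWD_def']
      refine Finset.sum_eq_zero fun σ _ => Finset.sum_eq_zero fun s _ => ?_
      have h' := spa_dot σ s (rho2 n) (rho2 n)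
      simp only [← pow_two] at h'
      rw [h', sub_self, zero_mul, mul_zero, ite_self]
    rw [h0] at h
    rw [h]
    refine Finset.sum_congr rfl fun T _ => ?_
    rw [← hνT T]
    rfl
  -- (3)
  have h3 : ∀ T, (N - ∑ i, ((x + bT T) i + rho2 n i) ^ 2) * m (x + bT T) =
      2 * ∑ r : Cw4R n, ∑ k ∈ Finset.Ico 1 K, g r (x + bT T + k • cw4B r) :=
    fun T => hF (x + bT T) K (fun k hk r => hK T k hk r)
  -- (4)
  have h4 : ∀ T, (∑ i, (x + bT T) i * bT T i) * m (x + bT T) =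
      ∑ r : Cw4R n, if r ∈ T then g r (x + bT T) else 0 := by
    intro T
    rw [Finset.sum_ite_mem, Finset.univ_inter, hg]
    simp only []
    rw [← Finset.sum_mul]
    congr 1
    rw [Finset.sum_comm]
    refine Finset.sum_congr rfl fun i _ => ?_
    rw [← Finset.mul_sum]
    congr 1
    rw [hbT]
    exact Finset.sum_apply _ _ _
  -- (5)
  have h5 : ∀ r : Cw4R n, ∑ T : Finset (Cw4R n), (-1 : ℤ) ^ T.card *
        ∑ k ∈ Finset.Ico 1 K, g r (x + bT T + k • cw4B r) +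
      ∑ T : Finset (Cw4R n), (if r ∈ T then (-1 : ℤ) ^ T.card * g r (x + bT T) else 0) = 0 :=
    fun r => cw4_split cw4B r (g r) x K hK1 (fun T => by
      show (_ : ℤ) * m _ = 0
      rw [hK T K le_rfl r, mul_zero])
  -- (2)
  have h2 : ∀ T, N - ∑ i, ν i ^ 2 = (N - ∑ i, ((x + bT T) i + rho2 n i) ^ 2) +
      2 * ∑ i, (x + bT T) i * bT T i + (∑ i, rho2 n i ^ 2 - ∑ i, (rho2 n i - bT T i) ^ 2) := by
    intro T
    have h := cw4l_sq (x + bT T) (rho2 n) (bT T)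
    have e : ∑ i, ((x + bT T) i + rho2 n i - bT T i) ^ 2 = ∑ i, ν i ^ 2 := by
      refine Finset.sum_congr rfl fun i _ => ?_
      congr 1
      simp only [hx, Pi.add_apply, Pi.sub_apply]
      ring
    rw [e] at h
    rw [h]
    ring
  rw [h1, Finset.mul_sum]
  calc ∑ T : Finset (Cw4R n), (N - ∑ i, ν i ^ 2) * ((-1 : ℤ) ^ T.card * m (x + bT T))
      = ∑ T : Finset (Cw4R n), ((-1 : ℤ) ^ T.card *
            (2 * ∑ r : Cw4R n, ∑ k ∈ Finset.Ico 1 K, g r (x + bT T + k • cw4B r)) +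
          (-1 : ℤ) ^ T.card * (2 * ∑ r : Cw4R n, if r ∈ T then g r (x + bT T) else 0) +
          (-1 : ℤ) ^ T.card *
            ((∑ i, rho2 n i ^ 2 - ∑ i, (rho2 n i - bT T i) ^ 2) * m (x + bT T))) := by
        refine Finset.sum_congr rfl fun T _ => ?_
        rw [h2 T, ← h3 T, ← h4 T]
        ring
    _ = 2 * ∑ r : Cw4R n, (∑ T : Finset (Cw4R n), (-1 : ℤ) ^ T.card *
            ∑ k ∈ Finset.Ico 1 K, g r (x + bT T + k • cw4B r) +
          ∑ T : Finset (Cw4R n), (if r ∈ T then (-1 : ℤ) ^ T.card * g r (x + bT T) else 0)) := by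
        rw [Finset.sum_add_distrib, Finset.sum_add_distrib, h6, add_zero, cw4l_comm, cw4l_comm,
          ← mul_add, ← Finset.sum_add_distrib]
        simp only [mul_ite, mul_zero]
    _ = 0 := by
        simp only [h5, Finset.sum_const_zero, mul_zero]

end Claimed.Agent.R282
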