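import Claimed.Agent.R282.Rep.C.W4.Defs

/-!
# Row 282, Rep, LEAF L-C-W4-T : the denominator identity as an identity of functionals (architect helper78), ~80 lines

PLAN.  `denomD μ` says: `altWD (fun y => [μ = y]) ρ = ∑_T [μ = ρ - β_T] ε_T` for every `μ`.
Let `Y : Finset (Fin n → ℤ)` contain all `signedPermAct σ s ρ` and all `ρ - β_T` (`Finset.univ.image … ∪ Finset.univ.image …`, `classical`).
For `y ∈ Y`: `G y = ∑_(μ∈Y) G μ * [μ = y]` (`Finset.sum_ite_eq`-type).  Hence (unfold `altWD`, `Finset.mul_sum`, `Finset.sum_comm`)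
`altWD G ρ = ∑_(μ∈Y) G μ * altWD (fun y => [μ = y]) ρ = ∑_(μ∈Y) G μ * ∑_T [μ = ρ - β_T] ε_T = ∑_T ε_T G (ρ - β_T)`.
RULES: edit in place, keep names and statements, helper lemmas with prefix `cw4t_`.
-/

set_option autoImplicit false

namespace Claimed.Agent.R282

open Claims.C0456

variable {n : ℕ}

/-- [T] -/
theorem cw4_transfer (G : (Fin n → ℤ) → ℤ) :
    altWD G (rho2 n) =
      ∑ T : Finset (Cw4R n), (-1 : ℤ) ^ T.card * G (rho2 n - ∑ r ∈ T, cw4B r) := by
  classical
  set Y : Finset (Fin n → ℤ) :=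
    (Finset.univ.image fun p : Equiv.Perm (Fin n) × (Fin n → Bool) => signedPermAct p.1 p.2 (rho2 n)) ∪
      (Finset.univ.image fun T : Finset (Cw4R n) => rho2 n - ∑ r ∈ T, cw4B r) with hY
  rw [altWD_expand G (rho2 n) Y (fun σ s _ => Finset.mem_union_left _
    (Finset.mem_image.2 ⟨(σ, s), Finset.mem_univ _, rfl⟩))]
  simp only [denomD, Finset.mul_sum]
  rw [Finset.sum_comm]
  refine Finset.sum_congr rfl fun T _ => ?_
  rw [Finset.sum_eq_single (rho2 n - ∑ r ∈ T, cw4B r)]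
  · rw [if_pos rfl, mul_comm]
  · intro ν _ hν
    rw [if_neg hν, mul_zero]
  · intro h
    exact absurd (Finset.mem_union_right _ (Finset.mem_image.2 ⟨T, Finset.mem_univ _, rfl⟩)) h

end Claimed.Agent.R282
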